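import Vale.Agent.P267.H706.Lim
import Vale.Agent.P267.H338.Iface
import Vale.Agent.P267.H209.Quot

/-!
# P267, route S of the endgame: CONTRACTION (helper209)

`x`, `T` functions near the divisor `Y` and the inner end with `x ∘ g = x k₁`, `T ∘ g = x k₂`,
`k₁`, `k₂` holomorphic, `g` the inward shift.  Then `g` contracts `(Λ x, T)` near `Y` and the end.
-/

set_option linter.unusedSectionVars false
set_option linter.unusedVariables false

open scoped Manifold ContDiff ComplexConjugate Matrix Topology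
open MeasureTheory Set Filter

noncomputable section

namespace Vale.Agent.P267.H209

open Vale.Agent.P267.FL Vale.Agent.P267.XT Vale.Agent.P267.H706 Vale.Agent.P267.H338

variable {M : Type} [TopologicalSpace M] [ChartedSpace C2 M] [IsManifold 𝓘(ℂ, C2) ω M]

/-! ### holomorphic functions at a point -/

theorem HolAt.continuousAt {k : M → ℂ} {x : M} (h : HolAt 0 k x) : ContinuousAt k x :=
  (h.at0 (n := 0)).continuousAt

theorem holAt_of_mdifferentiableOn {k : M → ℂ} {U : Set M} (hU : IsOpen U)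
    (h : MDifferentiableOn 𝓘(ℂ, C2) 𝓘(ℂ) k U) {x : M} (hx : x ∈ U) : HolAt 0 k x :=
  ((holOn_zero_iff_mdifferentiableOn hU).2 h).holAt hU hx

theorem HolAt.mdifferentiableAt {k : M → ℂ} {x : M} (h : HolAt 0 k x) :
    MDifferentiableAt 𝓘(ℂ, C2) 𝓘(ℂ) k x := by
  obtain ⟨U, hU, hUo, hxU⟩ := eventually_nhds_iff.1 h.eventually
  exact ((holOn_zero_iff_mdifferentiableOn hUo).1 (holOn_of_holAt hU) x hxU).mdifferentiableAt
    (hUo.mem_nhds hxU)

/-- maps which carry preferred charts to preferred charts are holomorphic -/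
theorem mdifferentiable_of_chartMap {N : Type} [TopologicalSpace N] [ChartedSpace C2 N]
    [IsManifold 𝓘(ℂ, C2) ω N] {g : M → N} (hg : ChartMap g) :
    MDifferentiable 𝓘(ℂ, C2) 𝓘(ℂ, C2) g := by
  intro y
  have hM1 : IsManifold 𝓘(ℂ, C2) 1 M := IsManifold.of_le (n := ω) le_top
  have hN1 : IsManifold 𝓘(ℂ, C2) 1 N := IsManifold.of_le (n := ω) le_top
  have e1 : (chartAt C2 y).MDifferentiable 𝓘(ℂ, C2) 𝓘(ℂ, C2) :=
    mdifferentiable_of_mem_atlas (chart_mem_atlas _ _)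
  have e2 : (chartAt C2 (g y)).MDifferentiable 𝓘(ℂ, C2) 𝓘(ℂ, C2) :=
    mdifferentiable_of_mem_atlas (chart_mem_atlas _ _)
  have h1 : MDifferentiableAt 𝓘(ℂ, C2) 𝓘(ℂ, C2) (chartAt C2 y) y :=
    e1.mdifferentiableAt (mem_chart_source C2 y)
  have hgy : chartAt C2 (g y) (g y) = chartAt C2 y y := hg.apply_eq y
  have h2 : MDifferentiableAt 𝓘(ℂ, C2) 𝓘(ℂ, C2) (chartAt C2 (g y)).symm (chartAt C2 y y) := by
    refine e2.mdifferentiableAt_symm ?_
    rw [← hgy]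
    exact (chartAt C2 (g y)).map_source (mem_chart_source C2 (g y))
  refine (h2.comp y h1).congr_of_eventuallyEq ?_
  have h3 : ∀ᶠ z in 𝓝 y, g z ∈ (chartAt C2 (g y)).source :=
    hg.cont.continuousAt.eventually ((chartAt C2 (g y)).open_source.mem_nhds (mem_chart_source C2 _))
  filter_upwards [hg.germ y, h3] with z hz hz3
  show g z = (chartAt C2 (g y)).symm (chartAt C2 y z)
  rw [← hz, (chartAt C2 (g y)).left_inv hz3]

/-! ### limits at the inner end, for functions defined near the inner end only -/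

section lim

variable (D : XTData M)

/-- `706 lim_in` for functions which are holomorphic near the inner end only -/
theorem lim_near_in {d' ε : ℝ} (hroot : D.RootGap d') (hε : 0 < ε) (hεd : ε ≤ d')
    (hT : T1s D ε) {k : M → ℂ} {R : ℝ} (hk : ∀ x, D.f x < R → HolAt 0 k x) {R' C : ℝ}
    (hgr : ∀ x, D.f x ≤ R' → ‖k x‖ ≤ C * Real.exp (-(d' * D.f x))) :
    ∃ b : ℂ, ∃ A R'' : ℝ, 0 ≤ A ∧ R'' < R ∧ R'' ≤ R' ∧ R'' ≤ 0 ∧ ∀ x, D.f x ≤ R'' →
      ‖k x - b‖ ≤ A * Real.exp (ε * D.f x) := by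
  set s : ℝ := min (min (R - 2) R') (-1) with hs
  have hsR : s + 2 ≤ R := by
    have : s ≤ R - 2 := (min_le_left _ _).trans (min_le_left _ _)
    linarith
  have hsR' : s ≤ R' := (min_le_left _ _).trans (min_le_right _ _)
  have hs1 : s ≤ -1 := min_le_right _ _
  set u : M → ℂ := fun x => cutI D s x * k x with hu
  have hu1 : ∀ x, D.f x ≤ s → u x = k x := fun x hx => by
    simp only [hu]; rw [cutI_eq_one D hx, one_mul]
  have hu0 : ∀ x, s + 1 ≤ D.f x → u x = 0 := fun x hx => by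
    simp only [hu]; rw [cutI_eq_zero D hx, zero_mul]
  have hureg : Reg0 ∞ 0 u := by
    rw [reg0_iff_at]
    intro x
    rcases lt_or_ge (D.f x) R with hx | hx
    · exact ((reg_cutI D s).at x).mul (hk x hx).at0
    · refine (at0_zero (V := ℂ)).congr ?_
      filter_upwards [gt_nhds D (show s + 1 < D.f x by linarith)] with y hy
      exact hu0 y hy.le
  have hucont : Continuous fun x => ‖u x‖ := hureg.continuous.norm
  obtain ⟨C₁, hC₁, hC₁'⟩ := bdd_on D hucont s 0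
  have hg1 : ∀ x, D.f x ≤ 0 → ‖u x‖ ≤ (|C| + C₁) * Real.exp (-(d' * D.f x)) := by
    intro x hx
    have hd' : 0 < d' := hroot.pos
    rcases le_total (D.f x) s with h | h
    · rw [hu1 x h]
      refine (hgr x (h.trans hsR')).trans ?_
      gcongr
      linarith [le_abs_self C]
    · refine (hC₁' x h hx).trans ?_
      have he : 1 ≤ Real.exp (-(d' * D.f x)) := Real.one_le_exp (by nlinarith)
      nlinarith [abs_nonneg C]
  have hdreg : Reg1 ∞ 0 (dbar0 0 u) := hureg.dbar infty_add_one_le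
  have hdcont : Continuous (n1 D.h 0 (dbar0 0 u)) := continuous_n1 D.herm hdreg
  obtain ⟨C₂, hC₂, hC₂'⟩ := bdd_on D hdcont s 0
  have hdb : ∀ x, D.f x ≤ 0 → n1 D.h 0 (dbar0 0 u) x ≤
      (C₂ * Real.exp (-(ε * s))) * Real.exp (ε * D.f x) := by
    intro x hx
    rcases lt_or_ge (D.f x) s with h | h
    · have h1 : dbar0 0 u x = 0 := by
        have : dbar0 0 u x = dbar0 0 k x := by
          apply dbar0_congr
          filter_upwards [lt_nhds D h] with y hy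
          exact hu1 y hy.le
        rw [this, (hk x (by linarith)).dbar0]
      have h2 : n1 D.h 0 (dbar0 0 u) x = 0 := by simp [n1, nsq1, h1]
      rw [h2]
      positivity
    · refine (hC₂' x h hx).trans ?_
      rw [mul_assoc, ← Real.exp_add]
      have he : 1 ≤ Real.exp (-(ε * s) + ε * D.f x) := Real.one_le_exp (by nlinarith)
      nlinarith
  obtain ⟨b, A, hA⟩ := lim_in D hroot hε hεd hT hureg hg1 hdb
  refine ⟨b, |A|, s, abs_nonneg A, by linarith, hsR', by linarith, fun x hx => ?_⟩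
  rw [← hu1 x hx]
  refine (hA x (by linarith)).trans ?_
  gcongr
  exact le_abs_self A

end lim

/-! ### constancy on curves -/

section curves

/-- a holomorphic function near an embedded `ℙ¹` is constant on it -/
theorem const_image (φ : EmbP1 M) {k : M → ℂ} (hk : ∀ x ∈ φ.image, HolAt 0 k x) :
    ∀ x ∈ φ.image, k x = k (φ.f₁ 0) := by
  have hd : Differentiable ℂ fun z => k (φ.f₀ z) := by
    intro z
    have h1 := (HolAt.mdifferentiableAt (hk _ (φ.mem_image_f₀ z))).comp z (φ.holo₀ z)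
    exact mdifferentiableAt_iff_differentiableAt.1 h1
  have hcont : ContinuousOn k φ.image := fun x hx => (HolAt.continuousAt (hk x hx)).continuousWithinAt
  have hb : Bornology.IsBounded (range fun z => k (φ.f₀ z)) := by
    refine (φ.isCompact_image.image_of_continuousOn hcont).isBounded.subset ?_
    rintro _ ⟨z, rfl⟩
    exact ⟨_, φ.mem_image_f₀ z, rfl⟩
  have hc : ∀ z, k (φ.f₀ z) = k (φ.f₀ 0) := fun z => hd.apply_eq_apply_of_bounded hb z 0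
  have hlim : k (φ.f₁ 0) = k (φ.f₀ 0) := by
    have h1 : Tendsto (fun z => k (φ.f₁ z)) (𝓝[≠] 0) (𝓝 (k (φ.f₁ 0))) := by
      have h2 : ContinuousAt (fun z => k (φ.f₁ z)) 0 :=
        ContinuousAt.comp (f := φ.f₁) (HolAt.continuousAt (hk _ (φ.mem_image_f₁ 0)))
          (φ.holo₁ 0).continuousAt
      exact h2.tendsto.mono_left nhdsWithin_le_nhds
    have h3 : Tendsto (fun z => k (φ.f₁ z)) (𝓝[≠] (0 : ℂ)) (𝓝 (k (φ.f₀ 0))) := by
      refine tendsto_const_nhds.congr' ?_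
      filter_upwards [self_mem_nhdsWithin] with z hz
      rw [φ.glue' z hz]
      exact (hc _).symm
    exact tendsto_nhds_unique h1 h3
  rintro x (⟨z, rfl⟩ | hx)
  · rw [hc z, hlim]
  · rw [mem_singleton_iff.1 hx]

/-- a holomorphic function near a countable union of embedded `ℙ¹`s is constant on its connected
subsets -/
theorem const_on {κ : Type} [Countable κ] (φ : κ → EmbP1 M) {Y P : Set M}
    (hY : Y = ⋃ i, (φ i).image) (hP : P ⊆ Y) (hc : IsPreconnected P) {k : M → ℂ}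
    (hk : ∀ x ∈ Y, HolAt 0 k x) {x y : M} (hx : x ∈ P) (hy : y ∈ P) : k x = k y := by
  have h1 : IsPreconnected (k '' P) :=
    hc.image k fun x hx => (HolAt.continuousAt (hk x (hP hx))).continuousWithinAt
  have h2 : (k '' P).Countable := by
    refine (countable_range fun i => k ((φ i).f₁ 0)).mono ?_
    rintro _ ⟨z, hz, rfl⟩
    have hz' := hP hz
    rw [hY] at hz'
    obtain ⟨i, hi⟩ := mem_iUnion.1 hz'
    refine ⟨i, ?_⟩
    have := const_image (φ i) (k := k) (fun w hw => hk w (by rw [hY]; exact mem_iUnion.2 ⟨i, hw⟩))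
    exact (this z hi).symm
  exact (h2.isTotallyDisconnected _ subset_rfl h1) ⟨x, hx, rfl⟩ ⟨y, hy, rfl⟩

end curves

/-! ### contraction -/

section contr

variable (D : XTData M)

theorem sh_neg_succ (j : ℕ) (p : M) : D.sh (-((j : ℤ) + 1)) p = D.sh (-1) (D.sh (-(j : ℤ)) p) := by
  rw [← D.sh_add]
  congr 1
  ring

/-- the multiplier is of absolute value `< 1` -/
theorem norm_lt_one {x k : M → ℂ} {b : ℂ} {R δ C : ℝ} (hδ : 0 < δ)
    (h1 : ∀ p, D.f p ≤ R → x (D.sh (-1) p) = x p * k p)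
    (hx : ∀ p, D.f p ≤ R → ‖x p‖ ≤ C * Real.exp (δ * D.f p))
    (hx0 : ∀ R', ∃ p, D.f p ≤ R' ∧ x p ≠ 0)
    (hlim : ∀ η, 0 < η → ∃ R', ∀ p, D.f p ≤ R' → ‖k p - b‖ < η) : ‖b‖ < 1 := by
  by_contra hb
  have hb : 1 ≤ ‖b‖ := not_lt.1 hb
  set q : ℝ := Real.exp (-(δ / 2)) with hq
  have hq0 : 0 < q := Real.exp_pos _
  have hq1 : q < 1 := by rw [hq, Real.exp_lt_one_iff]; linarith
  obtain ⟨R', hR'⟩ := hlim (1 - q) (by linarith)
  obtain ⟨p, hp, hp0⟩ := hx0 (min R R')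
  have hf : ∀ j : ℕ, D.f (D.sh (-(j : ℤ)) p) = D.f p - j := by
    intro j
    rw [D.f_sh]; push_cast; ring
  have hlow : ∀ j : ℕ, ‖x p‖ * q ^ j ≤ ‖x (D.sh (-(j : ℤ)) p)‖ := by
    intro j
    induction j with
    | zero => simp
    | succ j ih =>
      have hj : D.f (D.sh (-(j : ℤ)) p) ≤ min R R' := by
        rw [hf]
        have : (0 : ℝ) ≤ j := Nat.cast_nonneg j
        linarith
      have hk := hR' _ (hj.trans (min_le_right _ _))
      have hk' : q ≤ ‖k (D.sh (-(j : ℤ)) p)‖ := by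
        have := norm_sub_norm_le b (b - k (D.sh (-(j : ℤ)) p))
        rw [sub_sub_cancel, norm_sub_rev] at this
        linarith
      have he : x (D.sh (-((j + 1 : ℕ) : ℤ)) p) =
          x (D.sh (-(j : ℤ)) p) * k (D.sh (-(j : ℤ)) p) := by
        rw [← h1 _ (hj.trans (min_le_left _ _)), ← sh_neg_succ]
        push_cast; rfl
      rw [he, norm_mul, pow_succ, ← mul_assoc]
      exact mul_le_mul ih hk' hq0.le (norm_nonneg _)
  have hup : ∀ j : ℕ, ‖x (D.sh (-(j : ℤ)) p)‖ ≤ |C| * Real.exp (δ * D.f p) * (q ^ 2) ^ j := by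
    intro j
    have hj : D.f (D.sh (-(j : ℤ)) p) ≤ R := by
      rw [hf]
      have : (0 : ℝ) ≤ j := Nat.cast_nonneg j
      linarith [hp.trans (min_le_left R R')]
    refine (hx _ hj).trans ?_
    have e1 : Real.exp (δ * D.f (D.sh (-(j : ℤ)) p)) = Real.exp (δ * D.f p) * (q ^ 2) ^ j := by
      rw [hf, hq, ← Real.exp_nat_mul, ← Real.exp_nat_mul, ← Real.exp_add]
      congr 1
      push_cast
      ring
    rw [e1, ← mul_assoc]
    gcongr
    exact le_abs_self C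
  have hxp : 0 < ‖x p‖ := norm_pos_iff.2 hp0
  have hall : ∀ j : ℕ, ‖x p‖ ≤ |C| * Real.exp (δ * D.f p) * q ^ j := by
    intro j
    have h3 := (hlow j).trans (hup j)
    have hqj : 0 < q ^ j := pow_pos hq0 j
    have e2 : (q ^ 2) ^ j = q ^ j * q ^ j := by rw [← pow_mul, mul_comm 2 j, pow_mul, sq]
    rw [e2, ← mul_assoc] at h3
    exact le_of_mul_le_mul_right h3 hqj
  have ht : Tendsto (fun j : ℕ => |C| * Real.exp (δ * D.f p) * q ^ j) atTop (𝓝 0) := by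
    have := (tendsto_pow_atTop_nhds_zero_of_lt_one hq0.le hq1).const_mul
      (|C| * Real.exp (δ * D.f p))
    simpa using this
  have := ge_of_tendsto' ht hall
  linarith

/-- numerical core -/
theorem contr_num {k1 k2 a t : ℂ} {q c m Λ : ℝ} (hq : 0 ≤ q) (hqc : q < c)
    (hm : 0 ≤ m) (hΛ : Λ = m / (c - q)) (h1 : ‖k1‖ ≤ q) (h2 : ‖k2‖ ≤ m) :
    (Λ * ‖a * k1‖) ^ 2 + ‖a * k2‖ ^ 2 ≤ c ^ 2 * ((Λ * ‖a‖) ^ 2 + ‖t‖ ^ 2) := by
  have hcq : 0 < c - q := by linarith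
  have hΛ0 : 0 ≤ Λ := by rw [hΛ]; positivity
  have hm' : m = Λ * (c - q) := by rw [hΛ]; field_simp
  rw [norm_mul, norm_mul]
  have ha := norm_nonneg a
  have e1 : (Λ * (‖a‖ * ‖k1‖)) ^ 2 ≤ (Λ * ‖a‖) ^ 2 * q ^ 2 := by
    rw [← mul_assoc, mul_pow]
    gcongr
  have e2 : (‖a‖ * ‖k2‖) ^ 2 ≤ (Λ * ‖a‖) ^ 2 * (c - q) ^ 2 := by
    have : (‖a‖ * ‖k2‖) ^ 2 ≤ (‖a‖ * m) ^ 2 := by gcongr
    refine this.trans (le_of_eq ?_)
    rw [hm']; ring
  have e3 : q ^ 2 + (c - q) ^ 2 ≤ c ^ 2 := by nlinarith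
  have e4 : 0 ≤ (Λ * ‖a‖) ^ 2 := sq_nonneg _
  nlinarith [mul_le_mul_of_nonneg_left e3 e4, mul_nonneg (sq_nonneg c) (sq_nonneg ‖t‖)]

/-- **CONTRACTION** (route S), first form.  `N` is a neighbourhood of the union of curves `Y` and of
the inner end, every point of `Y` is joined inside `Y` to the inner end, `x ∘ g = x k₁` and
`T ∘ g = x k₂` on `N` with `k₁`, `k₂` holomorphic of growth `≤ e^{d'|f|}` at the inner end, `x → 0`
exponentially at the inner end.  Then `|(Λ x, T) ∘ g| ≤ c |(Λ x, T)|` on a neighbourhood of `Y` and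
of the inner end, `c < 1`. -/
theorem contraction {d' ε : ℝ} (hroot : D.RootGap d') (hε : 0 < ε) (hεd : ε ≤ d')
    (hT : T1s D ε) {N Y : Set M} (hN : IsOpen N) (hYN : Y ⊆ N) {κ : Type} [Countable κ]
    (φ : κ → EmbP1 M) (hY : Y = ⋃ i, (φ i).image)
    (hYC : ∀ y ∈ Y, ∀ R, ∃ P ⊆ Y, IsPreconnected P ∧ y ∈ P ∧ ∃ z ∈ P, D.f z ≤ R) {R : ℝ} (hend : ∀ p, D.f p ≤ R → p ∈ N)
    {x T k1 k2 : M → ℂ} (hk1 : MDifferentiableOn 𝓘(ℂ, C2) 𝓘(ℂ) k1 N)
    (hk2 : MDifferentiableOn 𝓘(ℂ, C2) 𝓘(ℂ) k2 N)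
    (h1 : ∀ p ∈ N, x (D.sh (-1) p) = x p * k1 p) (h2 : ∀ p ∈ N, T (D.sh (-1) p) = x p * k2 p)
    (hg1 : ∃ C, ∀ p, D.f p ≤ R → ‖k1 p‖ ≤ C * Real.exp (-(d' * D.f p)))
    (hg2 : ∃ C, ∀ p, D.f p ≤ R → ‖k2 p‖ ≤ C * Real.exp (-(d' * D.f p)))
    (hx : ∃ C δ, 0 < δ ∧ ∀ p, D.f p ≤ R → ‖x p‖ ≤ C * Real.exp (δ * D.f p))
    (hx0 : ∀ R', ∃ p, D.f p ≤ R' ∧ x p ≠ 0) :
    ∃ Λ c : ℝ, 0 < Λ ∧ 0 ≤ c ∧ c < 1 ∧ ∃ N' ⊆ N, IsOpen N' ∧ Y ⊆ N' ∧
      (∃ R', ∀ p, D.f p ≤ R' → p ∈ N') ∧ ∀ p ∈ N',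
        (Λ * ‖x (D.sh (-1) p)‖) ^ 2 + ‖T (D.sh (-1) p)‖ ^ 2 ≤
          c ^ 2 * ((Λ * ‖x p‖) ^ 2 + ‖T p‖ ^ 2) := by
  obtain ⟨C1, hC1⟩ := hg1
  obtain ⟨C2', hC2⟩ := hg2
  obtain ⟨Cx, δ, hδ, hCx⟩ := hx
  have hol1 : ∀ p ∈ N, HolAt 0 k1 p := fun p hp => holAt_of_mdifferentiableOn hN hk1 hp
  have hol2 : ∀ p ∈ N, HolAt 0 k2 p := fun p hp => holAt_of_mdifferentiableOn hN hk2 hp
  obtain ⟨b1, A1, R1, hA1, -, hR1, hR10, hb1⟩ := lim_near_in D hroot hε hεd hT (k := k1) (R := R)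
    (fun p hp => hol1 p (hend p hp.le)) hC1
  obtain ⟨b2, A2, R2, hA2, -, hR2, hR20, hb2⟩ := lim_near_in D hroot hε hεd hT (k := k2) (R := R)
    (fun p hp => hol2 p (hend p hp.le)) hC2
  -- the limits
  have hlim : ∀ (k : M → ℂ) (b : ℂ) (A R₀ : ℝ), 0 ≤ A →
      (∀ p, D.f p ≤ R₀ → ‖k p - b‖ ≤ A * Real.exp (ε * D.f p)) →
      ∀ η, 0 < η → ∃ R', ∀ p, D.f p ≤ R' → ‖k p - b‖ < η := by
    intro k b A R₀ hA hb η hη
    have ht : Tendsto (fun r : ℝ => A * Real.exp (ε * r)) atBot (𝓝 0) := by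
      have h3 : Tendsto (fun r : ℝ => ε * r) atBot atBot := tendsto_id.const_mul_atBot hε
      have := (Real.tendsto_exp_atBot.comp h3).const_mul A
      simpa using this
    obtain ⟨r, hr⟩ := eventually_atBot.1 (ht.eventually (gt_mem_nhds hη))
    refine ⟨min r R₀, fun p hp => (hb p (hp.trans (min_le_right _ _))).trans_lt ?_⟩
    exact hr _ (hp.trans (min_le_left _ _))
  have hlim1 := hlim k1 b1 A1 R1 hA1 hb1
  have hlim2 := hlim k2 b2 A2 R2 hA2 hb2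
  -- values on `Y`
  have hYval : ∀ (k : M → ℂ) (b : ℂ), (∀ p ∈ N, HolAt 0 k p) →
      (∀ η, 0 < η → ∃ R', ∀ p, D.f p ≤ R' → ‖k p - b‖ < η) → ∀ y ∈ Y, k y = b := by
    intro k b hk hl y hy
    by_contra hne
    obtain ⟨R', hR'⟩ := hl ‖k y - b‖ (norm_pos_iff.2 (sub_ne_zero.2 hne))
    obtain ⟨P, hPY, hPc, hyP, z, hz, hzR⟩ := hYC y hy R'
    have h3 := hR' z hzR
    rw [const_on φ hY hPY hPc (fun w hw => hk w (hYN hw)) hz hyP] at h3
    exact lt_irrefl _ h3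
  have hY1 := hYval k1 b1 hol1 hlim1
  have hY2 := hYval k2 b2 hol2 hlim2
  have hb : ‖b1‖ < 1 := norm_lt_one D hδ (fun p hp => h1 p (hend p hp)) hCx hx0 hlim1
  -- constants
  set q : ℝ := (‖b1‖ + 1) / 2 with hq
  set c : ℝ := (q + 1) / 2 with hc
  set m : ℝ := ‖b2‖ + 1 with hm
  have hb0 := norm_nonneg b1
  have hb20 := norm_nonneg b2
  have hq0 : 0 < q := by positivity
  have hbq : ‖b1‖ < q := by rw [hq]; linarith
  have hq1 : q < 1 := by rw [hq]; linarith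
  have hqc : q < c := by rw [hc]; linarith
  have hc1 : c < 1 := by rw [hc]; linarith
  have hm0 : 0 < m := by positivity
  refine ⟨m / (c - q), c, div_pos hm0 (by linarith), by linarith, hc1,
    {p | p ∈ N ∧ ‖k1 p‖ < q} ∩ {p | p ∈ N ∧ ‖k2 p‖ < m}, fun p hp => hp.1.1, ?_, ?_, ?_, ?_⟩
  · have hc1' : ContinuousOn k1 N := fun p hp => (HolAt.continuousAt (hol1 p hp)).continuousWithinAt
    have hc2' : ContinuousOn k2 N := fun p hp => (HolAt.continuousAt (hol2 p hp)).continuousWithinAt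
    exact (hc1'.norm.isOpen_inter_preimage hN isOpen_Iio).inter
      (hc2'.norm.isOpen_inter_preimage hN isOpen_Iio)
  · intro y hy
    exact ⟨⟨hYN hy, by rw [hY1 y hy]; exact hbq⟩, ⟨hYN hy, by rw [hY2 y hy, hm]; linarith⟩⟩
  · obtain ⟨r1, hr1⟩ := hlim1 (q - ‖b1‖) (by linarith)
    obtain ⟨r2, hr2⟩ := hlim2 1 one_pos
    refine ⟨min R (min r1 r2), fun p hp => ?_⟩
    have hpR : D.f p ≤ R := hp.trans (min_le_left _ _)
    have hp1 : D.f p ≤ r1 := hp.trans ((min_le_right _ _).trans (min_le_left _ _))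
    have hp2 : D.f p ≤ r2 := hp.trans ((min_le_right _ _).trans (min_le_right _ _))
    refine ⟨⟨hend p hpR, ?_⟩, ⟨hend p hpR, ?_⟩⟩
    · have h3 := norm_le_norm_add_norm_sub' (k1 p) b1
      have h4 := hr1 p hp1
      linarith
    · have h3 := norm_le_norm_add_norm_sub' (k2 p) b2
      have h4 := hr2 p hp2
      rw [hm]
      linarith
  · rintro p ⟨⟨hpN, hp1⟩, ⟨-, hp2⟩⟩
    rw [h1 p hpN, h2 p hpN]
    exact contr_num hq0.le hqc hm0.le rfl hp1.le hp2.le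

theorem exists_f_lt [Nonempty M] (t : ℝ) : ∃ x, D.f x < t := by
  obtain ⟨x₀⟩ := ‹Nonempty M›
  obtain ⟨j, hj⟩ := exists_nat_gt (D.f x₀ - t)
  refine ⟨D.sh (-(j : ℤ)) x₀, ?_⟩
  rw [D.f_sh]
  push_cast
  linarith

/-- the quotient `k` of `y` and `x` satisfies the bound of `y`, `x` -/
theorem quot_bound {U : Set M} (hU : IsOpen U) {x y k : M → ℂ}
    (hk : MDifferentiableOn 𝓘(ℂ, C2) 𝓘(ℂ) k U) (hke : ∀ q ∈ U, y q = x q * k q)
    (hne : ∀ p ∈ U, ∃ᶠ q in 𝓝 p, x q ≠ 0) {d C R : ℝ} (hR : ∀ p, D.f p ≤ R → p ∈ U)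
    (hb : ∀ p, D.f p ≤ R → ‖y p‖ ≤ C * Real.exp (-(d * D.f p)) * ‖x p‖) :
    ∀ p, D.f p ≤ R - 1 → ‖k p‖ ≤ C * Real.exp (-(d * D.f p)) := by
  intro p hp
  have hpU : p ∈ U := hR p (by linarith)
  by_contra hcon
  rw [not_le] at hcon
  have hfc : ContinuousAt D.f p := (continuous_f D).continuousAt
  have h1 : ContinuousAt k p :=
    ((hk p hpU).mdifferentiableAt (hU.mem_nhds hpU)).continuousAt
  have h2 : ContinuousAt (fun q => ‖k q‖ - C * Real.exp (-(d * D.f q))) p := by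
    refine h1.norm.sub (ContinuousAt.mul continuousAt_const ?_)
    exact Real.continuous_exp.continuousAt.comp ((continuousAt_const.mul hfc).neg)
  have h3 : ∀ᶠ q in 𝓝 p, 0 < ‖k q‖ - C * Real.exp (-(d * D.f q)) :=
    h2.eventually (lt_mem_nhds (by linarith))
  have h4 : ∀ᶠ q in 𝓝 p, D.f q < R := hfc.eventually (gt_mem_nhds (by linarith))
  obtain ⟨q, hq0, hq3, hq4⟩ := ((hne p hpU).and_eventually (h3.and h4)).exists
  have h5 := hb q hq4.le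
  rw [hke q (hR q hq4.le), norm_mul] at h5
  have h6 : 0 < ‖x q‖ := norm_pos_iff.2 hq0
  have h7 : ‖k q‖ ≤ C * Real.exp (-(d * D.f q)) := by
    rw [mul_comm] at h5
    exact le_of_mul_le_mul_right h5 h6
  linarith

/-- **CONTRACTION** (route S).  `x`, `T` are holomorphic on `N ⊇ U ∪ g U`, `x` is not locally zero on
`U`, `|x ∘ g|, |T ∘ g| ≤ C_p |x|` near every point `p` of `U`, and `≤ C e^{d'|f|} |x|` at the inner
end; `U ⊇ Y ∪ {f ≤ R}`, every point of the union of curves `Y` is joined inside `Y` to the inner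
end; `x → 0` exponentially at the inner end.  Then `|(Λ x, T) ∘ g| ≤ c |(Λ x, T)|` on a
neighbourhood of `Y` and of the inner end, `c < 1`. -/
theorem contraction' [Nonempty M] {d' ε : ℝ} (hroot : D.RootGap d') (hε : 0 < ε) (hεd : ε ≤ d')
    (hT : T1s D ε) {N U Y : Set M} (hN : IsOpen N) (hU : IsOpen U) (hUN : U ⊆ N)
    (hgU : ∀ p ∈ U, D.sh (-1) p ∈ N) (hYU : Y ⊆ U) {κ : Type} [Countable κ]
    (φ : κ → EmbP1 M) (hY : Y = ⋃ i, (φ i).image)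
    (hYC : ∀ y ∈ Y, ∀ R, ∃ P ⊆ Y, IsPreconnected P ∧ y ∈ P ∧ ∃ z ∈ P, D.f z ≤ R) {R : ℝ}
    (hend : ∀ p, D.f p ≤ R → p ∈ U) {x T : M → ℂ} (hx : MDifferentiableOn 𝓘(ℂ, C2) 𝓘(ℂ) x N)
    (hTT : MDifferentiableOn 𝓘(ℂ, C2) 𝓘(ℂ) T N) (hne : ∀ p ∈ U, ∃ᶠ q in 𝓝 p, x q ≠ 0)
    (hb1 : ∀ p ∈ U, ∃ C : ℝ, ∀ᶠ q in 𝓝 p, ‖x (D.sh (-1) q)‖ ≤ C * ‖x q‖)
    (hb2 : ∀ p ∈ U, ∃ C : ℝ, ∀ᶠ q in 𝓝 p, ‖T (D.sh (-1) q)‖ ≤ C * ‖x q‖)
    (he1 : ∃ C, ∀ p, D.f p ≤ R → ‖x (D.sh (-1) p)‖ ≤ C * Real.exp (-(d' * D.f p)) * ‖x p‖)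
    (he2 : ∃ C, ∀ p, D.f p ≤ R → ‖T (D.sh (-1) p)‖ ≤ C * Real.exp (-(d' * D.f p)) * ‖x p‖)
    (hxe : ∃ C δ, 0 < δ ∧ ∀ p, D.f p ≤ R → ‖x p‖ ≤ C * Real.exp (δ * D.f p)) :
    ∃ Λ c : ℝ, 0 < Λ ∧ 0 ≤ c ∧ c < 1 ∧ ∃ N' ⊆ U, IsOpen N' ∧ Y ⊆ N' ∧
      (∃ R', ∀ p, D.f p ≤ R' → p ∈ N') ∧ ∀ p ∈ N',
        (Λ * ‖x (D.sh (-1) p)‖) ^ 2 + ‖T (D.sh (-1) p)‖ ^ 2 ≤
          c ^ 2 * ((Λ * ‖x p‖) ^ 2 + ‖T p‖ ^ 2) := by
  have hg : MDifferentiable 𝓘(ℂ, C2) 𝓘(ℂ, C2) (D.sh (-1)) :=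
    mdifferentiable_of_chartMap (D.chartMap_sh (-1))
  have hcomp : ∀ {k : M → ℂ}, MDifferentiableOn 𝓘(ℂ, C2) 𝓘(ℂ) k N →
      MDifferentiableOn 𝓘(ℂ, C2) 𝓘(ℂ) (fun p => k (D.sh (-1) p)) U := by
    intro k hk p hp
    have h1 : MDifferentiableAt 𝓘(ℂ, C2) 𝓘(ℂ) k (D.sh (-1) p) :=
      (hk _ (hgU p hp)).mdifferentiableAt (hN.mem_nhds (hgU p hp))
    exact (h1.comp p (hg p)).mdifferentiableWithinAt
  obtain ⟨k1, hk1, hk1e⟩ := quot hU (hx.mono hUN) (hcomp hx) hne hb1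
  obtain ⟨k2, hk2, hk2e⟩ := quot hU (hx.mono hUN) (hcomp hTT) hne hb2
  obtain ⟨C1, hC1⟩ := he1
  obtain ⟨C2', hC2⟩ := he2
  obtain ⟨Cx, δ, hδ, hCx⟩ := hxe
  refine contraction D hroot hε hεd hT hU hYU φ hY hYC (R := R - 1)
    (fun p hp => hend p (by linarith)) hk1 hk2 hk1e hk2e
    ⟨C1, quot_bound D hU hk1 hk1e hne hend hC1⟩ ⟨C2', quot_bound D hU hk2 hk2e hne hend hC2⟩
    ⟨Cx, δ, hδ, fun p hp => hCx p (by linarith)⟩ ?_
  intro R'
  obtain ⟨p, hp⟩ := exists_f_lt D (min R R')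
  have h4 : ∀ᶠ q in 𝓝 p, D.f q < min R R' := lt_nhds D hp
  obtain ⟨q, hq0, hq⟩ :=
    ((hne p (hend p (hp.le.trans (min_le_left _ _)))).and_eventually h4).exists
  exact ⟨q, hq.le.trans (min_le_right _ _), hq0⟩

end contr

end Vale.Agent.P267.H209
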