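import Vale.Agent.P267.H457.Chain
import Vale.Agent.P267.H706.Lim

/-!
# Topology of the chain of curves (helper209)

Consequences of the structure `Chain O` of helper457:

* `Chain.f_bound`: `|f x - l / n| ≤ A` for `x ∈ C l`;
* `Chain.isClosed_union`: every union of curves `C j` is closed, local finiteness;
* `Chain.reach`: every point of `C l` is joined to the inner end inside `⋃ j ≤ l, C j`;
* `Chain.inter`: `C l ∩ ⋃ j < l, C j` is one point;
* `Chain.shift_subset`: `γ^(-1)` maps `⋃ j ≤ l, C j` into itself.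
-/

set_option linter.unusedSectionVars false
set_option linter.unusedVariables false

open scoped Manifold ContDiff Topology
open Set Filter
open Vale.Agent.P272.K (Cm)
open Vale.Agent.P267.FL Vale.Agent.P267.H158 Vale.Agent.P267.XT Vale.Agent.P267.H338

noncomputable section

namespace Vale.Agent.P267.LineX

namespace Chain

variable {X : Type} [TopologicalSpace X] [ChartedSpace C2 X] [IsManifold 𝓘(ℂ, C2) ω X] {n : ℕ}
  {O : BlockOut X n} (Ch : Chain O)

include Ch in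
theorem n_pos : 0 < n := by
  have h := Ch.ord.symm 0
  exact Fin.pos h.1

theorem sh_image_add (k l : ℤ) (S : Set (Cov O.B.hh)) :
    O.B.D.sh (k + l) '' S = O.B.D.sh k '' (O.B.D.sh l '' S) := by
  rw [image_image]
  exact image_congr fun x _ => O.B.D.sh_add k l x

theorem sh_image_zero (S : Set (Cov O.B.hh)) : O.B.D.sh 0 '' S = S := by
  have : (O.B.D.sh 0 : Cov O.B.hh → Cov O.B.hh) = id := by
    funext x; exact O.B.D.sh_zero x
  rw [this, image_id]

theorem C_shift_int (l k : ℤ) : (Ch.C (l + n * k)).image = O.B.D.sh k '' (Ch.C l).image := by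
  induction k using Int.induction_on with
  | zero => rw [mul_zero, add_zero, sh_image_zero]
  | succ i ih =>
    have h1 : l + n * ((i : ℤ) + 1) = (l + n * (i : ℤ)) + n := by ring
    rw [h1, Ch.C_shift, ih, ← sh_image_add]
    congr 2; ring
  | pred i ih =>
    have h1 := Ch.C_shift (l + n * (-(i : ℤ) - 1))
    have h2 : l + n * (-(i : ℤ) - 1) + n = l + n * -(i : ℤ) := by ring
    rw [h2, ih] at h1
    have h3 : O.B.D.sh (-1) '' (O.B.D.sh (-(i : ℤ)) '' (Ch.C l).image) =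
        O.B.D.sh (-1) '' (O.B.D.sh 1 '' (Ch.C (l + n * (-(i : ℤ) - 1))).image) := by rw [h1]
    rw [← sh_image_add, ← sh_image_add, neg_add_cancel, sh_image_zero] at h3
    rw [← h3]
    congr 2; ring

/-- the curve `C l` lies near the height `l / n` -/
theorem f_bound : ∃ A : ℝ, 0 ≤ A ∧ ∀ l : ℤ, ∀ x ∈ (Ch.C l).image,
    |O.B.D.f x - (l : ℝ) / n| ≤ A := by
  have hn : 0 < n := Ch.n_pos
  have hn' : (0 : ℤ) < n := by exact_mod_cast hn
  have hnR : (0 : ℝ) < n := by exact_mod_cast hn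
  have hc : Continuous O.B.D.f := H706.continuous_f O.B.D
  have h1 : ∀ r : ℤ, ∃ A : ℝ, ∀ x ∈ (Ch.C r).image, |O.B.D.f x| ≤ A := by
    intro r
    obtain ⟨A, hA⟩ := ((Ch.C r).isCompact_image.image (continuous_abs.comp hc)).bddAbove
    exact ⟨A, fun x hx => hA ⟨x, hx, rfl⟩⟩
  choose A hA using h1
  obtain ⟨B, hB⟩ : ∃ B : ℝ, ∀ r ∈ Finset.Ico (0 : ℤ) n, A r ≤ B := by
    obtain ⟨B, hB⟩ := ((Finset.Ico (0 : ℤ) n).image A).bddAbove
    exact ⟨B, fun r hr => hB (Finset.mem_coe.2 (Finset.mem_image_of_mem A hr))⟩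
  refine ⟨|B| + 1, by positivity, ?_⟩
  intro l x hx
  set q := l / (n : ℤ) with hq
  set r := l % (n : ℤ) with hr
  have hl : l = r + n * q := by rw [hq, hr]; exact (Int.emod_add_mul_ediv l n).symm
  have hr0 : 0 ≤ r := Int.emod_nonneg _ hn'.ne'
  have hrn : r < n := Int.emod_lt_of_pos _ hn'
  rw [hl, Ch.C_shift_int] at hx
  obtain ⟨y, hy, rfl⟩ := hx
  rw [O.B.D.f_sh]
  have h2 : |O.B.D.f y| ≤ |B| :=
    (hA r y hy).trans ((hB r (Finset.mem_Ico.2 ⟨hr0, hrn⟩)).trans (le_abs_self B))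
  have h3 : (l : ℝ) / n = (r : ℝ) / n + q := by
    rw [hl]; push_cast; field_simp
  have h4 : |(r : ℝ) / n| ≤ 1 := by
    rw [abs_of_nonneg (div_nonneg (by exact_mod_cast hr0) hnR.le), div_le_one hnR]
    exact_mod_cast hrn.le
  have h5 : O.B.D.f y + (q : ℝ) - (l : ℝ) / n = O.B.D.f y - (r : ℝ) / n := by rw [h3]; ring
  rw [h5]
  exact (abs_sub _ _).trans (add_le_add h2 h4)

/-- only finitely many curves meet `a ≤ f ≤ b` -/
theorem finite_meet (a b : ℝ) :
    {l : ℤ | ∃ x ∈ (Ch.C l).image, a ≤ O.B.D.f x ∧ O.B.D.f x ≤ b}.Finite := by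
  obtain ⟨A, hA, hAb⟩ := Ch.f_bound
  have hnR : (0 : ℝ) < n := by exact_mod_cast Ch.n_pos
  refine (Set.finite_Icc (⌊(a - A) * n⌋) (⌈(b + A) * n⌉)).subset ?_
  rintro l ⟨x, hx, h1, h2⟩
  have h3 := abs_le.1 (hAb l x hx)
  constructor
  · have : (a - A) * n ≤ l := by
      rw [← le_div_iff₀ hnR]; linarith
    exact_mod_cast (Int.floor_le _).trans this
  · have : (l : ℝ) ≤ (b + A) * n := by
      rw [← div_le_iff₀ hnR]; linarith
    exact_mod_cast this.trans (Int.le_ceil _)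

/-- the family of curves is locally finite -/
theorem locallyFinite : LocallyFinite fun l : ℤ => (Ch.C l).image := by
  intro x
  have hc : Continuous O.B.D.f := H706.continuous_f O.B.D
  refine ⟨O.B.D.f ⁻¹' Ioo (O.B.D.f x - 1) (O.B.D.f x + 1),
    (isOpen_Ioo.preimage hc).mem_nhds ⟨by linarith, by linarith⟩, ?_⟩
  refine (Ch.finite_meet (O.B.D.f x - 1) (O.B.D.f x + 1)).subset ?_
  rintro l ⟨y, hy, hy1, hy2⟩
  exact ⟨y, hy, hy1.le, hy2.le⟩

/-- every union of curves of the chain is closed -/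
theorem isClosed_union [T2Space (Cov O.B.hh)] (S : Set ℤ) :
    IsClosed (⋃ j ∈ S, (Ch.C j).image) := by
  have h1 : LocallyFinite fun l : S => (Ch.C l).image :=
    Ch.locallyFinite.comp_injective Subtype.val_injective
  have h2 := h1.isClosed_iUnion fun l => (Ch.C l).isClosed_image
  rwa [biUnion_eq_iUnion]

/-- the sequence `l, l - s l, ...` -/
def down (l : ℤ) : ℕ → ℤ
  | 0 => l
  | k + 1 => down l k - Ch.s (down l k)

theorem down_le (l : ℤ) (k : ℕ) : Ch.down l k ≤ l - k := by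
  induction k with
  | zero => simp [down]
  | succ k ih =>
    have h := Ch.s_pos (Ch.down l k)
    show Ch.down l k - Ch.s (Ch.down l k) ≤ l - ((k + 1 : ℕ) : ℤ)
    push_cast
    have h' : (1 : ℤ) ≤ Ch.s (Ch.down l k) := by exact_mod_cast h
    linarith

/-- **Every chain reaches the inner end.** -/
theorem reach (l : ℤ) {y : Cov O.B.hh} (hy : y ∈ (Ch.C l).image) (R : ℝ) :
    ∃ P ⊆ ⋃ j ∈ Iic l, (Ch.C j).image, IsPreconnected P ∧ y ∈ P ∧ ∃ z ∈ P, O.B.D.f z ≤ R := by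
  obtain ⟨A, hA, hAb⟩ := Ch.f_bound
  have hnR : (0 : ℝ) < n := by exact_mod_cast Ch.n_pos
  refine ⟨⋃ k, (Ch.C (Ch.down l k)).image, ?_, ?_, mem_iUnion.2 ⟨0, hy⟩, ?_⟩
  · refine iUnion_subset fun k => ?_
    refine subset_biUnion_of_mem (u := fun j => (Ch.C j).image) (show Ch.down l k ∈ Iic l from ?_)
    have := Ch.down_le l k
    have h0 : (0 : ℤ) ≤ k := Int.natCast_nonneg k
    exact mem_Iic.2 (by linarith)
  · refine IsPreconnected.iUnion_of_chain (fun k => (Ch.C _).isPreconnected_image) fun k => ?_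
    obtain ⟨p, hp⟩ := Ch.node (Ch.down l k)
    refine ⟨p, ?_⟩
    have : p ∈ (Ch.C (Ch.down l k)).image ∩ (Ch.C (Ch.down l k - Ch.s (Ch.down l k))).image := by
      rw [hp]; rfl
    exact this
  · obtain ⟨k, hk⟩ := exists_nat_gt ((l : ℝ) - (R - A) * n)
    obtain ⟨z, hz⟩ : (Ch.C (Ch.down l k)).image.Nonempty := ⟨_, (Ch.C _).mem_image_f₀ 0⟩
    refine ⟨z, mem_iUnion.2 ⟨k, hz⟩, ?_⟩
    have h1 := abs_le.1 (hAb _ z hz)
    have h2 : (Ch.down l k : ℝ) ≤ l - k := by exact_mod_cast Ch.down_le l k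
    have h3 : (Ch.down l k : ℝ) / n ≤ R - A := by
      rw [div_le_iff₀ hnR]; linarith
    linarith

/-- the curve `C l` meets the union of the lower curves in one point -/
theorem inter (l : ℤ) : ∃ p, (Ch.C l).image ∩ ⋃ j ∈ Iio l, (Ch.C j).image = {p} := by
  obtain ⟨p, hp⟩ := Ch.node l
  refine ⟨p, ?_⟩
  ext x
  constructor
  · rintro ⟨h1, h2⟩
    obtain ⟨j, hj, hxj⟩ := mem_iUnion₂.1 h2
    by_cases hjs : j = l - Ch.s l
    · rw [← hp]; subst hjs; exact ⟨h1, hxj⟩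
    · exact absurd hxj (Set.disjoint_left.1 (Ch.disj l j hj hjs) h1)
  · intro hx
    rw [← hp] at hx
    refine ⟨hx.1, mem_iUnion₂.2 ⟨l - Ch.s l, ?_, hx.2⟩⟩
    have : (1 : ℤ) ≤ Ch.s l := by exact_mod_cast Ch.s_pos l
    exact mem_Iio.2 (by linarith)

/-- `γ^(-1)` maps the union of the curves `C j`, `j ≤ l`, into itself -/
theorem shift_subset (l : ℤ) {x : Cov O.B.hh} (hx : x ∈ ⋃ j ∈ Iic l, (Ch.C j).image) :
    O.B.D.sh (-1) x ∈ ⋃ j ∈ Iic l, (Ch.C j).image := by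
  obtain ⟨j, hj, hxj⟩ := mem_iUnion₂.1 hx
  refine mem_iUnion₂.2 ⟨j - n, ?_, ?_⟩
  · have : (0 : ℤ) ≤ n := Int.natCast_nonneg n
    exact mem_Iic.2 (by linarith [mem_Iic.1 hj])
  · have h1 := Ch.C_shift_int j (-1)
    have h2 : j + (n : ℤ) * -1 = j - n := by ring
    rw [← h2, h1]
    exact ⟨x, hxj, rfl⟩

/-- the union of the curves as an indexed union, for `H209.contraction` -/
theorem union_eq (l : ℤ) :
    (⋃ j ∈ Iic l, (Ch.C j).image) = ⋃ i : Iic l, (Ch.C (i : ℤ)).image := biUnion_eq_iUnion _ _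

theorem reach' (l : ℤ) : ∀ y ∈ ⋃ j ∈ Iic l, (Ch.C j).image, ∀ R : ℝ,
    ∃ P ⊆ ⋃ j ∈ Iic l, (Ch.C j).image, IsPreconnected P ∧ y ∈ P ∧ ∃ z ∈ P, O.B.D.f z ≤ R := by
  intro y hy R
  obtain ⟨j, hj, hyj⟩ := mem_iUnion₂.1 hy
  obtain ⟨P, hP, h1, h2, h3⟩ := Ch.reach j hyj R
  refine ⟨P, hP.trans ?_, h1, h2, h3⟩
  exact biUnion_subset_biUnion_left (Iic_subset_Iic.2 hj)

/-- the zero set of the section of the class `ord.symm l` -/
theorem zero_eq (l : ℤ) :
    {x | O.N (Ch.ord.symm l) x = 0} = ⋃ j ∈ Iic l, (Ch.C j).image := by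
  ext x
  rw [mem_ofPred_eq, Ch.zero l x]
  simp only [mem_iUnion, mem_Iic, exists_prop]

end Chain

end Vale.Agent.P267.LineX
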